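import Vale.Agent.P167.N.Kit
import Vale.Agent.P167.N.H167.Q.JunMix
import Vale.Agent.P167.H975.LkH

/-! generated from Vale.Agent.P167.H975.LkH (q < 1 port) -/

set_option autoImplicit false

namespace Vale.Agent.P167.N.H975

open Vale.Agent.P167.H975

open Finset Vale.Agent.P167.BR

open Vale.Agent.P167.FK (Bq Good Ex RSW)

open Vale.Agent.P167.FKA (Loc Ind)

open Vale.Agent.P167.H192.Q (SRSW)

open Vale.Agent.P167.H167.Q (MxA)
open Vale.Agent.P167.N.H167.Q (Bd3)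

variable {ι : Type} {D : Finset (ℤ × ℤ)} {η : Cfg} {r R : ℤ} {Q ε : ℝ}

/-- **Products of local functions in separated boxes.** -/
theorem ex_prod (hQ : Kit Q) (hε : 0 ≤ ε) (hε1 : ε ≤ 1) (hη : Good η) (x : ι → ℤ × ℤ)
    (F : ι → Cfg → ℝ) (I : Finset ι) (hM : ∀ i ∈ I, MxA Q D η (x i) r R ε)
    (hF0 : ∀ i ∈ I, ∀ ω, 0 ≤ F i ω) (hF : ∀ i ∈ I, Loc (Bq (x i) r ∩ D) (F i))
    (hd : ∀ i ∈ I, ∀ j ∈ I, i ≠ j → Disjoint (Bq (x i) R) (Bq (x j) r)) :
    (1 - ε) ^ I.card * ∏ i ∈ I, Ex Q D η (F i) ≤ Ex Q D η (fun ω => ∏ i ∈ I, F i ω) ∧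
      Ex Q D η (fun ω => ∏ i ∈ I, F i ω) ≤ (1 + ε) ^ I.card * ∏ i ∈ I, Ex Q D η (F i) := by
  have hQ_pos := hQ.pos
  classical
  have hQ0 : 0 < Q := by linarith
  induction I using Finset.induction_on with
  | empty => simp [FKA.Ex_const hQ0]
  | insert i I hi ih =>
    obtain ⟨ih1, ih2⟩ := ih (fun j hj => hM j (mem_insert_of_mem hj))
      (fun j hj => hF0 j (mem_insert_of_mem hj)) (fun j hj => hF j (mem_insert_of_mem hj))
      fun j hj k hk => hd j (mem_insert_of_mem hj) k (mem_insert_of_mem hk)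
    set G : Cfg → ℝ := fun ω => ∏ j ∈ I, F j ω with hG
    have hG0 : ∀ ω, 0 ≤ G ω := fun ω => prod_nonneg fun j hj => hF0 j (mem_insert_of_mem hj) ω
    have hGI : Ind (Bq (x i) R ∩ D) G := by
      refine Ind.prod fun j hj ω ω' hω => hF j (mem_insert_of_mem hj) ω ω' fun v hv => hω v ?_
      intro hv'
      have hne : i ≠ j := fun h => hi (h ▸ hj)
      exact disjoint_left.1 (hd i (mem_insert_self _ _) j (mem_insert_of_mem hj) hne)
        (mem_inter.1 hv').1 (mem_inter.1 hv).1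
    have hFi0 := hF0 i (mem_insert_self _ _)
    have key := (Vale.Agent.P167.N.H167.Q.MxA.mul2 (h := (hM i (mem_insert_self _ _)))) hQ hε rfl hη hη (fun _ _ _ => rfl) hFi0
      (hF i (mem_insert_self _ _)) hGI
    have hab : (fun ω => |G ω|) = G := by
      funext ω
      exact abs_of_nonneg (hG0 ω)
    rw [hab, abs_le] at key
    have e1 : (fun ω => ∏ j ∈ insert i I, F j ω) = fun ω => G ω * F i ω := by
      funext ω
      rw [prod_insert hi, mul_comm]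
    have f0 : 0 ≤ Ex Q D η (F i) := FKA.Ex_nonneg hQ0 fun S _ => hFi0 _
    have g0 : 0 ≤ Ex Q D η G := FKA.Ex_nonneg hQ0 fun S _ => hG0 _
    have p0 : 0 ≤ ∏ j ∈ I, Ex Q D η (F j) := prod_nonneg fun j hj =>
      FKA.Ex_nonneg hQ0 fun S _ => hF0 j (mem_insert_of_mem hj) _
    rw [e1, card_insert_of_notMem hi, prod_insert hi, pow_succ, pow_succ]
    constructor
    · have h1 : (1 - ε) ^ I.card * (1 - ε) * (Ex Q D η (F i) * ∏ j ∈ I, Ex Q D η (F j)) =
          (1 - ε) * Ex Q D η (F i) * ((1 - ε) ^ I.card * ∏ j ∈ I, Ex Q D η (F j)) := by ring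
      rw [h1]
      have h2 := mul_le_mul_of_nonneg_left ih1 (mul_nonneg (by linarith : 0 ≤ 1 - ε) f0)
      nlinarith [key.1]
    · have h1 : (1 + ε) ^ I.card * (1 + ε) * (Ex Q D η (F i) * ∏ j ∈ I, Ex Q D η (F j)) =
          (1 + ε) * Ex Q D η (F i) * ((1 + ε) ^ I.card * ∏ j ∈ I, Ex Q D η (F j)) := by ring
      rw [h1]
      have h2 := mul_le_mul_of_nonneg_left ih2 (mul_nonneg (by linarith : 0 ≤ 1 + ε) f0)
      nlinarith [key.2]

/-- **Products of local functions in separated boxes and a function off the boxes.** -/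
theorem ex_prod_G (hQ : Kit Q) (hε : 0 ≤ ε) (hε1 : ε ≤ 1) (hη : Good η) (x : ι → ℤ × ℤ)
    (F : ι → Cfg → ℝ) (G : Cfg → ℝ) (I : Finset ι) (hM : ∀ i ∈ I, MxA Q D η (x i) r R ε)
    (hF0 : ∀ i ∈ I, ∀ ω, 0 ≤ F i ω) (hF : ∀ i ∈ I, Loc (Bq (x i) r ∩ D) (F i))
    (hd : ∀ i ∈ I, ∀ j ∈ I, i ≠ j → Disjoint (Bq (x i) R) (Bq (x j) r)) (hG0 : ∀ ω, 0 ≤ G ω)
    (hGI : ∀ i ∈ I, Ind (Bq (x i) R ∩ D) G) :
    (1 - ε) ^ I.card * (Ex Q D η G * ∏ i ∈ I, Ex Q D η (F i)) ≤
        Ex Q D η (fun ω => G ω * ∏ i ∈ I, F i ω) ∧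
      Ex Q D η (fun ω => G ω * ∏ i ∈ I, F i ω) ≤
        (1 + ε) ^ I.card * (Ex Q D η G * ∏ i ∈ I, Ex Q D η (F i)) := by
  have hQ_pos := hQ.pos
  classical
  have hQ0 : 0 < Q := by linarith
  induction I using Finset.induction_on with
  | empty => simp
  | insert i I hi ih =>
    obtain ⟨ih1, ih2⟩ := ih (fun j hj => hM j (mem_insert_of_mem hj))
      (fun j hj => hF0 j (mem_insert_of_mem hj)) (fun j hj => hF j (mem_insert_of_mem hj))
      (fun j hj k hk => hd j (mem_insert_of_mem hj) k (mem_insert_of_mem hk))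
      fun j hj => hGI j (mem_insert_of_mem hj)
    set H : Cfg → ℝ := fun ω => G ω * ∏ j ∈ I, F j ω with hH
    have hH0 : ∀ ω, 0 ≤ H ω := fun ω =>
      mul_nonneg (hG0 ω) (prod_nonneg fun j hj => hF0 j (mem_insert_of_mem hj) ω)
    have hHI : Ind (Bq (x i) R ∩ D) H := by
      intro ω ω' hω
      have h1 : ∏ j ∈ I, F j ω = ∏ j ∈ I, F j ω' := by
        refine prod_congr rfl fun j hj => hF j (mem_insert_of_mem hj) ω ω' fun v hv => hω v ?_
        intro hv'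
        have hne : i ≠ j := fun h => hi (h ▸ hj)
        exact disjoint_left.1 (hd i (mem_insert_self _ _) j (mem_insert_of_mem hj) hne)
          (mem_inter.1 hv').1 (mem_inter.1 hv).1
      show G ω * _ = G ω' * _
      rw [h1, hGI i (mem_insert_self _ _) ω ω' hω]
    have hFi0 := hF0 i (mem_insert_self _ _)
    have key := (Vale.Agent.P167.N.H167.Q.MxA.mul2 (h := (hM i (mem_insert_self _ _)))) hQ hε rfl hη hη (fun _ _ _ => rfl) hFi0
      (hF i (mem_insert_self _ _)) hHI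
    have hab : (fun ω => |H ω|) = H := by
      funext ω
      exact abs_of_nonneg (hH0 ω)
    rw [hab, abs_le] at key
    have e1 : (fun ω => G ω * ∏ j ∈ insert i I, F j ω) = fun ω => H ω * F i ω := by
      funext ω
      rw [prod_insert hi, hH]
      ring
    have f0 : 0 ≤ Ex Q D η (F i) := FKA.Ex_nonneg hQ0 fun S _ => hFi0 _
    have g0 : 0 ≤ Ex Q D η H := FKA.Ex_nonneg hQ0 fun S _ => hH0 _
    have p0 : 0 ≤ Ex Q D η G * ∏ j ∈ I, Ex Q D η (F j) :=
      mul_nonneg (FKA.Ex_nonneg hQ0 fun S _ => hG0 _) (prod_nonneg fun j hj =>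
        FKA.Ex_nonneg hQ0 fun S _ => hF0 j (mem_insert_of_mem hj) _)
    rw [e1, card_insert_of_notMem hi, prod_insert hi, pow_succ, pow_succ]
    constructor
    · have h1 : (1 - ε) ^ I.card * (1 - ε) * (Ex Q D η G * (Ex Q D η (F i) *
          ∏ j ∈ I, Ex Q D η (F j))) = (1 - ε) * Ex Q D η (F i) *
          ((1 - ε) ^ I.card * (Ex Q D η G * ∏ j ∈ I, Ex Q D η (F j))) := by ring
      rw [h1]
      have h2 := mul_le_mul_of_nonneg_left ih1 (mul_nonneg (by linarith : 0 ≤ 1 - ε) f0)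
      nlinarith [key.1]
    · have h1 : (1 + ε) ^ I.card * (1 + ε) * (Ex Q D η G * (Ex Q D η (F i) *
          ∏ j ∈ I, Ex Q D η (F j))) = (1 + ε) * Ex Q D η (F i) *
          ((1 + ε) ^ I.card * (Ex Q D η G * ∏ j ∈ I, Ex Q D η (F j))) := by ring
      rw [h1]
      have h2 := mul_le_mul_of_nonneg_left ih2 (mul_nonneg (by linarith : 0 ≤ 1 + ε) f0)
      nlinarith [key.2]

end Vale.Agent.P167.N.H975
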