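import Vale.Agent.P167.N.Kit
import Vale.Agent.P167.N.H167.Q.JunMix
import Vale.Agent.P167.H975.LkB

/-! generated from Vale.Agent.P167.H975.LkB (q < 1 port) -/

set_option autoImplicit false

namespace Vale.Agent.P167.N.H975

open Vale.Agent.P167.H975

open Finset Vale.Agent.P167.BR

open Vale.Agent.P167.FK (Bq cf Ex Good f_sym)

open Vale.Agent.P167.FKA (Loc)

open Vale.Agent.P167.H135 (shC shE hdv_sh shE_inj shE_neg shC_ev)

variable {ω ω' : Cfg} {D D' B : Finset (ℤ × ℤ)} {e : Ed} {A : Finset Ed} {t c : ℤ × ℤ} {r R : ℤ}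

open Vale.Agent.P167.H167.Q (MxA)

variable {Q ε : ℝ} {η η' : Cfg}

/-- **Comparison of the expectations.** -/
theorem TX_cmp (hQ : Kit Q) (hε : 0 ≤ ε) (h : MxA Q D η c r R ε) (hη : Good η) (hη' : Good η')
    (ht : Even (t.1 + t.2)) (hr : r + 1 ≤ R) (hD : Agr D D' c t R)
    (hout : ∀ v ∈ Bq c R, v ∉ D → η' (v + t) = η v) {w w' : Finset Ed → ℝ}
    (h0 : ∀ ω, 0 ≤ TX w D c r ω)
    (hw : ∀ ω, ∀ A ∈ pcs ω D, (∀ e ∈ A, hdv e ∈ Bq c r) → w' (A.image (shE t)) = w A) :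
    |Ex Q D η (TX w D c r) - Ex Q D' η' (TX w' D' (c + t) r)| ≤
      ε * Ex Q D' η' (TX w' D' (c + t) r) := by
  have hQ_pos := hQ.pos
  have hQ0 : 0 < Q := by linarith
  obtain ⟨g1, g2⟩ := Ex_lk (D' := D') hQ0 ht hη' (TX w D c r)
  have e1 : (fun ω : Cfg => TX w D c r fun v => ω (v + t)) = TX w' D' (c + t) r := by
    funext ω
    exact (TX_tr ht (hD.mono hr) (fun _ _ _ => rfl) (hw _)).symm
  rw [e1] at g2
  rw [← g2]
  refine Vale.Agent.P167.N.H167.Q.MxA.dom (h := h) hQ hε ?_ hη g1 (fun v hv hvD => hout v hv hvD) h0 (TX_loc w D c r)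
  ext v
  rw [mem_inter, mem_inter, mem_tr', sub_neg_eq_add]
  exact and_congr_right fun hv => (hD v hv).symm

end Vale.Agent.P167.N.H975
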