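import Vale.Agent.P167.N.Kit
import Vale.Agent.P167.N.H975.LkB
import Vale.Agent.P167.H975.LkF

/-! generated from Vale.Agent.P167.H975.LkF (q < 1 port) -/

set_option autoImplicit false

namespace Vale.Agent.P167.N.H975

open Vale.Agent.P167.H975

open Finset Vale.Agent.P167.BR

open Vale.Agent.P167.E6 (IsPolygon Encloses dir face)

open Vale.Agent.P167.FK (Bq Good Ex)

open Vale.Agent.P167.H135 (shE)

open Vale.Agent.P167.H871 (Bd)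

open Vale.Agent.P167.H601.LG (GeoN Spe SepL)

open Vale.Agent.P167.H167.Q (MxA FlR lsd)

variable {D D' : Finset (ℤ × ℤ)} {t c : ℤ × ℤ} {r R : ℤ} {η η' ω ω' : Cfg} {Q ε θ β : ℝ}
  {N N' n₀ n₀' k k' : ℕ} {q : ZMod N → ℤ × ℤ} {q' : ZMod N' → ℤ × ℤ} {τ τ' : ℕ → ℤ}

section

variable (hG : GeoN n₀ N q τ) (hG' : GeoN n₀' N' q' τ') (hq : IsPolygon q)
  (hD : Encloses q D) (hq' : IsPolygon q') (hD' : Encloses q' D')
  (hu : Bd (D : Set (ℤ × ℤ)) N (fun j => q (j : ZMod N)) τ 1)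
  (hu' : Bd (D' : Set (ℤ × ℤ)) N' (fun j => q' (j : ZMod N')) τ' 1) {L L' : ℕ}
  (hS : SepL L N τ k) (hS' : SepL L' N' τ' k') (hR1 : 1 ≤ R) (h3 : 3 * (R + 1) < n₀)
  (h3' : 3 * (R + 1) < n₀') (hL : 2 * (R + 1) < L) (hL' : 2 * (R + 1) < L') {j j' : ℕ}
  (hj : j < N) (hj' : j' < N') (hs : Spe τ k j) (hs' : Spe τ' k' j')
  (h : SameT N k τ j N' k' τ' j')
  (ht : Even ((q' (j' : ZMod N') - q (j : ZMod N)).1 + (q' (j' : ZMod N') - q (j : ZMod N)).2))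
  (hc : Real.cos θ ≠ 0) (hr : r + 1 ≤ R)

include hG hG' hq hD hq' hD' hu hu' hS hS' hR1 h3 h3' hL hL' hj hj' hs hs' h ht hc hr

/-- **Comparison of the expectations.** -/
theorem lk_cmp (hQ : Kit Q) (hε : 0 ≤ ε) (hM : MxA Q D η (q (j : ZMod N)) r R ε) (hη : Good η)
    (hη' : Good η') (hout : ∀ v ∈ Bq (q (j : ZMod N)) R, v ∉ D →
      η' (v + (q' (j' : ZMod N') - q (j : ZMod N))) = η v)
    (h0 : ∀ ω, 0 ≤ TX (wJ θ β q D k τ) D (q (j : ZMod N)) r ω) :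
    |Ex Q D η (TX (wJ θ β q D k τ) D (q (j : ZMod N)) r) -
        Ex Q D' η' (TX (wJ θ β q' D' k' τ') D' (q' (j' : ZMod N')) r)| ≤
      ε * Ex Q D' η' (TX (wJ θ β q' D' k' τ') D' (q' (j' : ZMod N')) r) := by
  have hQ_pos := hQ.pos
  obtain ⟨hA, σ, hσ⟩ := sameT_loc hG hG' hq hD hq' hD' hu hu' hS hS' hR1 h3 h3' hL hL' hj hj' hs
    hs' h
  have hw := TX_cmp hQ hε hM hη hη' ht hr hA hout (w := wJ θ β q D k τ)
    (w' := wJ θ β q' D' k' τ') h0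
    fun ω A hA' hB => wJ_tr hc hq hD hq' hD' ht (hA.mono hr) (hσ.le (by omega)) hA' hB
  rwa [show q (j : ZMod N) + (q' (j' : ZMod N') - q (j : ZMod N)) = q' (j' : ZMod N') by abel]
    at hw

end

end Vale.Agent.P167.N.H975
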