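import Vale.Agent.P167.N.Kit
import Vale.Agent.P167.N.H167.Q.JunMix
import Vale.Agent.P167.N.H975.LkF
import Vale.Agent.P167.H975.LkG

/-! generated from Vale.Agent.P167.H975.LkG (q < 1 port) -/

set_option autoImplicit false

namespace Vale.Agent.P167.N.H975

open Vale.Agent.P167.H975

open Finset Vale.Agent.P167.BR

open Vale.Agent.P167.E6 (IsPolygon Encloses dir face)

open Vale.Agent.P167.FK (Bq Good Ex RSW)

open Vale.Agent.P167.H192.Q (SRSW)

open Vale.Agent.P167.H135 (shE)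

open Vale.Agent.P167.H871 (Bd)

open Vale.Agent.P167.H601.LG (GeoN Spe SepL)

open Vale.Agent.P167.H167.Q (MxA)
open Vale.Agent.P167.N.H167.Q (Bd3 mx_all)

/-- **Mixing with error at most `ε`** at boxes the ratio of which is at least `K`. -/
theorem mx_ratio {Q : ℝ} (hQ : Kit Q) (hR : RSW Q) (hS : SRSW Q) {ε : ℝ} (hε : 0 < ε) :
    ∃ K : ℝ, 1 ≤ K ∧ ∀ (D : Finset (ℤ × ℤ)) (η : Cfg) (x : ℤ × ℤ) (r R : ℤ), Bd3 D η x R →
      1 ≤ r → K * r ≤ R → MxA Q D η x r R ε := by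
  have hQ_pos := hQ.pos
  obtain ⟨α, C, hα, hC, h⟩ := Vale.Agent.P167.N.H167.Q.mx_all hQ hR hS
  set δ : ℝ := min (1 / 2) (ε / 6) with hδ
  have hδ0 : 0 < δ := lt_min (by norm_num) (by positivity)
  set K : ℝ := max 1 ((C / δ) ^ (1 / α)) with hK
  have hK1 : 1 ≤ K := le_max_left _ _
  refine ⟨K, hK1, fun D η x r R hB hr hrR => ?_⟩
  have hr' : (1 : ℝ) ≤ r := by exact_mod_cast hr
  have hR0 : (0 : ℝ) < R := lt_of_lt_of_le (by positivity) hrR
  have hx : 0 ≤ (r : ℝ) / R := div_nonneg (by linarith) hR0.le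
  have hxK : (r : ℝ) / R ≤ 1 / K := by
    rw [div_le_div_iff₀ hR0 (by linarith)]
    linarith
  have h1 : C * ((r : ℝ) / R) ^ α ≤ δ := by
    have h2 : ((r : ℝ) / R) ^ α ≤ (1 / K) ^ α := Real.rpow_le_rpow hx hxK hα.le
    have h3 : C / δ ≤ K ^ α := by
      have h4 : ((C / δ) ^ (1 / α)) ^ α ≤ K ^ α :=
        Real.rpow_le_rpow (by positivity) (le_max_right _ _) hα.le
      rwa [← Real.rpow_mul (by positivity), one_div_mul_cancel hα.ne', Real.rpow_one] at h4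
    have h5 : (1 / K) ^ α = 1 / K ^ α := by
      rw [Real.div_rpow (by norm_num) (by linarith), Real.one_rpow]
    rw [h5] at h2
    have hKα : 0 < K ^ α := by positivity
    calc C * ((r : ℝ) / R) ^ α ≤ C * (1 / K ^ α) := mul_le_mul_of_nonneg_left h2 hC.le
      _ ≤ δ := by
        rw [mul_one_div, div_le_iff₀ hKα]
        rw [div_le_iff₀ hδ0] at h3
        linarith
  have h2 := h D η x r R hB hr (by
    have : (r : ℝ) ≤ R := by nlinarith
    exact_mod_cast this) (h1.trans (min_le_left _ _))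
  intro ξ ξ' g g' a b F hF hL
  refine (h2 ξ ξ' g g' a b F hF hL).trans ?_
  have h3 : 6 * (C * ((r : ℝ) / R) ^ α) ≤ ε := by
    have := min_le_right (1 / 2) (ε / 6)
    linarith
  exact mul_le_mul_of_nonneg_right (by linarith) (FKA.Ex_nonneg (by linarith) fun S _ => hF _)

/-- **Special points of the same type have comparable local expectations.** -/
theorem lk_two {Q : ℝ} (hQ : Kit Q) (hR : RSW Q) (hSR : SRSW Q) : ∃ K : ℝ, 1 ≤ K ∧
    ∀ {D D' : Finset (ℤ × ℤ)} {r R : ℤ} {η η' : Cfg} {θ β : ℝ} {N N' n₀ n₀' k k' : ℕ}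
      {q : ZMod N → ℤ × ℤ} {q' : ZMod N' → ℤ × ℤ} {τ τ' : ℕ → ℤ} {L L' j j' : ℕ},
      GeoN n₀ N q τ → GeoN n₀' N' q' τ' → IsPolygon q → Encloses q D → IsPolygon q' →
      Encloses q' D' → Bd (D : Set (ℤ × ℤ)) N (fun j => q (j : ZMod N)) τ 1 →
      Bd (D' : Set (ℤ × ℤ)) N' (fun j => q' (j : ZMod N')) τ' 1 →
      SepL L N τ k → SepL L' N' τ' k' → 3 * (R + 1) < n₀ → 3 * (R + 1) < n₀' →
      2 * (R + 1) < L → 2 * (R + 1) < L' → j < N → j' < N' → Spe τ k j → Spe τ' k' j' →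
      SameT N k τ j N' k' τ' j' →
      Even ((q' (j' : ZMod N') - q (j : ZMod N)).1 + (q' (j' : ZMod N') - q (j : ZMod N)).2) →
      Real.cos θ ≠ 0 → 1 ≤ r → K * r ≤ R → Bd3 D η (q (j : ZMod N)) R → Good η → Good η' →
      (∀ v ∈ Bq (q (j : ZMod N)) R, v ∉ D →
        η' (v + (q' (j' : ZMod N') - q (j : ZMod N))) = η v) →
      (∀ ω, 0 ≤ TX (wJ θ β q D k τ) D (q (j : ZMod N)) r ω) →
      Ex Q D η (TX (wJ θ β q D k τ) D (q (j : ZMod N)) r) ≤
          2 * Ex Q D' η' (TX (wJ θ β q' D' k' τ') D' (q' (j' : ZMod N')) r) ∧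
        Ex Q D' η' (TX (wJ θ β q' D' k' τ') D' (q' (j' : ZMod N')) r) ≤
          2 * Ex Q D η (TX (wJ θ β q D k τ) D (q (j : ZMod N)) r) := by
  have hQ_pos := hQ.pos
  obtain ⟨K, hK, h⟩ := mx_ratio hQ hR hSR (ε := 1 / 2) (by norm_num)
  refine ⟨K + 1, by linarith, ?_⟩
  intro D D' r R η η' θ β N N' n₀ n₀' k k' q q' τ τ' L L' j j' hG hG' hq hD hq' hD' hu hu' hS hS'
    h3 h3' hL hL' hj hj' hs hs' hT ht hc hr hrR hB hη hη' hout h0
  have hr' : (1 : ℝ) ≤ r := by exact_mod_cast hr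
  have h1 : r + 1 ≤ R := by
    have : ((r + 1 : ℤ) : ℝ) ≤ R := by
      push_cast
      nlinarith
    exact_mod_cast this
  have hM := h D η (q (j : ZMod N)) r R hB hr (by nlinarith)
  have key := lk_cmp hG hG' hq hD hq' hD' hu hu' hS hS' (by omega) h3 h3' hL hL' hj hj' hs hs' hT
    ht hc h1 hQ (by norm_num) hM hη hη' hout h0
  have h2 : 0 ≤ Ex Q D η (TX (wJ θ β q D k τ) D (q (j : ZMod N)) r) :=
    FKA.Ex_nonneg (by linarith) fun S _ => h0 _
  rw [abs_le] at key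
  constructor <;> linarith [key.1, key.2]

end Vale.Agent.P167.N.H975
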